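import Vale.Agent.P237.Quant.TailPartsLink
import Vale.Agent.P237.Quant.RowTables
import Vale.Agent.P237.Quant.EnvelopeTableData.N36
import Vale.Agent.P237.Quant.TailData.N45.tailN45P0
import Vale.Agent.P237.Quant.TailData.N45.tailN45P1
import Vale.Agent.P237.Quant.TailData.N45.tailN45P2
import Vale.Agent.P237.Quant.TailData.N45.tailN45P3
import Vale.Agent.P237.Quant.TailData.N45.tailN45N0
import Vale.Agent.P237.Quant.TailData.N45.tailN45N1

/-!
The tail inequalities of the rows of both sides in dimension 45. Generated.
-/

namespace Vale.Agent.P237.Quant

open TailCert TailData

/-- The tail inequalities of `negRow14` in dimension 45. -/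
theorem negRow14_tailAt45 : negRow14.TailAt 44 := by
  intro P hP
  simp only [negRow14, binsOf, List.mem_cons, List.not_mem_nil, or_false] at hP
  rcases hP with rfl | rfl
  · exact tailBin_negParts tailN45N0_check tailN45N0_parts envTable45_check (by decide +kernel)
  · exact tailBin_negParts tailN45N1_check tailN45N1_parts envTable45_check (by decide +kernel)

/-- The tail inequalities of `posRow43` in dimension 45. -/
theorem posRow43_tailAt45 : posRow43.TailAt 44 := by
  intro P hP
  simp only [posRow43, posRowB, posCuts14, posCuts16, binsOf, List.mem_cons, List.not_mem_nil, or_false] at hP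
  rcases hP with rfl | rfl | rfl | rfl
  · exact tailBin_posParts tailN45P0_check tailN45P0_parts envTable45_check (by decide +kernel)
  · exact tailBin_posParts tailN45P1_check tailN45P1_parts envTable45_check (by decide +kernel)
  · exact tailBin_posParts tailN45P2_check tailN45P2_parts envTable45_check (by decide +kernel)
  · exact tailBin_posParts tailN45P3_check tailN45P3_parts envTable45_check (by decide +kernel)

end Vale.Agent.P237.Quant
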